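import Vale.Agent.P281.H308.Bir.Push

/-! P281, project T-V, block V13c (helper308): modifications and Kodaira dimensions. -/

open scoped Manifold ContDiff Topology
open Set Filter

set_option linter.unusedSectionVars false

noncomputable section

namespace Vale.Agent.P281.H308.Bir

open Vale.Agent.P281 Vale.Agent.P281.H64 Vale.Agent.P281.H64.Gen Vale.Agent.P281.ISO Vale.Agent.P281.H713
open Vale.Agent.P281.H64.Thin (IsThinSet)

theorem small_of_small2 {n : ℕ} {X : Type} [TopologicalSpace X] [ChartedSpace (Cm n) X]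
    {N : Set X} (hN : IsSmall2 (Cm n) N) : IsSmallSet (Cm n) N := by
  obtain ⟨h1, H, hH, h2⟩ := hN
  refine ⟨h1, H, fun k => ⟨(hH k).1, fun y => ?_⟩, h2⟩
  by_cases hy : y ∈ H k
  · obtain ⟨g, hg, hs, hev⟩ := (hH k).2 y hy
    refine ⟨g 0, hg 0, fun h0 => ?_, hev.mono fun z hz hzH => hz hzH 0⟩
    obtain ⟨ξ, hξ⟩ := hs (fun _ => 1)
    have h3 : J.dif (Cm n) (g 0) y ξ = 1 := congrFun hξ 0
    have h4 : g 0 =ᶠ[𝓝 y] fun _ => (0 : ℂ) := h0
    have h5 : J.dif (Cm n) (g 0) y = 0 := by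
      unfold J.dif
      rw [h4.mfderiv_eq, mfderiv_const]
      rfl
    rw [h5] at h3
    exact zero_ne_one h3
  · refine ⟨fun _ => 1, contMDiffAt_const, fun h0 => ?_, ?_⟩
    · exact one_ne_zero h0.self_of_nhds
    · filter_upwards [(hH k).1.isOpen_compl.mem_nhds hy] with z hz hzH
      exact absurd hzH hz

section KodB

variable {n : ℕ} {X X₁ : Type} [TopologicalSpace X] [ChartedSpace (Cm n) X]
  [TopologicalSpace X₁] [ChartedSpace (Cm n) X₁] [IsManifold 𝓘(ℂ, Cm n) ω X]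
  [IsManifold 𝓘(ℂ, Cm n) ω X₁] {u : X₁ → X} {N : Set X}

/-- The components of the boundary through a point off the exceptional set have different
images. -/
theorem comp_inj (h : Mod (n := n) u N) {Δ₁ : Set X₁ → ℝ} (hΔ₁ : IsSNCBoundary (Cm n) Δ₁)
    (hD : ∀ D, Δ₁ D ≠ 0 → (∀ w ∈ D, u w ∈ N) ∨ ∀ x, ∃ g, IsLocalEq (Cm n) (u '' D) g x)
    {z : X₁} (hz : u z ∉ N) {D D' : Set X₁} (h1 : Δ₁ D ≠ 0) (h1' : Δ₁ D' ≠ 0) (hzD : z ∈ D)
    (hzD' : z ∈ D') (he : u '' D = u '' D') : D = D' := by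
  classical
  have h2 : ∃ g, IsLocalEq (Cm n) (u '' D) g (u z) := by
    rcases hD D h1 with h3 | h3
    · exact absurd (h3 z hzD) hz
    · exact h3 _
  obtain ⟨g, hg⟩ := h2
  have h3 : IsLocalEq (Cm n) D (fun w => g (u w)) z := localEq_pull h hz hg
  have h3' : IsLocalEq (Cm n) D' (fun w => g (u w)) z := localEq_pull h hz (by rw [← he]; exact hg)
  have hch : ∀ C : Set X₁, ∃ e : X₁ → ℂ, (Δ₁ C ≠ 0 → IsLocalEq (Cm n) C e z) ∧
      (C = D ∨ C = D' → e = fun w => g (u w)) := by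
    intro C
    by_cases hC : C = D ∨ C = D'
    · refine ⟨fun w => g (u w), fun _ => ?_, fun _ => rfl⟩
      rcases hC with hC | hC
      · rw [hC]; exact h3
      · rw [hC]; exact h3'
    · by_cases h4 : Δ₁ C ≠ 0
      · obtain ⟨e, he⟩ := (hΔ₁.prime C h4).2.1 z
        exact ⟨e, fun _ => he, fun h => absurd h hC⟩
      · exact ⟨0, fun h => absurd h h4, fun h => absurd h hC⟩
  choose e he1 he2 using hch
  have h5 := hΔ₁.snc z e fun C hC _ => he1 C hC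
  have h6 := h5.injective (a₁ := ⟨D, h1, hzD⟩) (a₂ := ⟨D', h1', hzD'⟩) (by
    show dif (Cm n) (e D) z = dif (Cm n) (e D') z
    rw [he2 D (Or.inl rfl), he2 D' (Or.inr rfl)])
  exact congrArg Subtype.val h6

theorem kodGE_push [T2Space X] (hHar : HartogsStmt) (hN : IsSmall2 (Cm n) N)
    (h : Mod (n := n) u N) {Δ : Set X → ℝ} {Δ₁ : Set X₁ → ℝ} (hΔ : IsSNCBoundary (Cm n) Δ)
    (hΔ₁ : IsSNCBoundary (Cm n) Δ₁)
    (hD : ∀ D, Δ₁ D ≠ 0 → (∀ w ∈ D, u w ∈ N) ∨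
      (∀ x, ∃ g, IsLocalEq (Cm n) (u '' D) g x) ∧ Δ₁ D = Δ (u '' D)) {j : ℕ}
    (hj : KodGE (Cm n) (fun (D : Set X₁) z g => IsLocalEq (Cm n) D g z) Δ₁ j) :
    KodGE (Cm n) (fun (D : Set X) z g => IsLocalEq (Cm n) D g z) Δ j := by
  classical
  obtain ⟨m, k, s, z₁, hm, hk, hs, hz₁, hs0, hind⟩ := hj
  have hΔ0 : ∀ D, 0 ≤ Δ D := by
    intro D
    obtain ⟨q, h1, h2, -⟩ := hΔ.rational D
    rw [h1]
    exact_mod_cast h2
  have hm' : (m : ℝ) ≠ 0 := by exact_mod_cast hm.ne'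
  obtain ⟨q, hq, K₁, hK₁, -⟩ := exists_denominator hΔ
  have hq' : (q : ℝ) ≠ 0 := by exact_mod_cast hq.ne'
  set K : Set X → ℕ := fun D => ⌊(m : ℝ) * Δ D⌋₊ with hKd
  have hKle : ∀ D, (K D : ℝ) ≤ m * Δ D := fun D =>
    Nat.floor_le (mul_nonneg (Nat.cast_nonneg _) (hΔ0 D))
  have hkΔ : ∀ D, k D ≠ 0 → Δ₁ D ≠ 0 := by
    intro D h1 h2
    have h3 := hk D
    rw [h2, mul_zero] at h3
    exact h1 (by exact_mod_cast h3)
  have hkK : ∀ D, k D ≠ 0 → (∀ w ∈ D, u w ∈ N) ∨ K (u '' D) = k D := by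
    intro D h1
    rcases hD D (hkΔ D h1) with h2 | h2
    · exact Or.inl h2
    · right
      rw [hKd]
      show ⌊(m : ℝ) * Δ (u '' D)⌋₊ = k D
      rw [← h2.2, ← hk D, Nat.floor_natCast]
  have hK₁Δ : ∀ D, m * K₁ D ≠ 0 ↔ Δ D ≠ 0 := by
    intro D
    have h1 := hK₁ D
    constructor
    · intro h h0
      rw [h0, mul_zero] at h1
      have h2 : K₁ D = 0 := by exact_mod_cast h1
      exact h (by rw [h2, mul_zero])
    · intro h h0
      have h2 : K₁ D = 0 := (Nat.mul_eq_zero.1 h0).resolve_left hm.ne'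
      rw [h2, Nat.cast_zero] at h1
      exact h ((mul_eq_zero.1 h1.symm).resolve_left hq')
  have hKΔ : ∀ D, K D ≠ 0 → Δ D ≠ 0 := by
    intro D hD h0
    apply hD
    rw [hKd]
    show ⌊(m : ℝ) * Δ D⌋₊ = 0
    rw [h0, mul_zero, Nat.floor_zero]
  have hKK : ∀ D, q * K D ≤ m * K₁ D := by
    intro D
    have h1 : ((q * K D : ℕ) : ℝ) ≤ ((m * K₁ D : ℕ) : ℝ) := by
      push_cast
      rw [hK₁ D]
      have h3 : (0 : ℝ) ≤ q := by positivity
      calc (q : ℝ) * K D ≤ q * (m * Δ D) := mul_le_mul_of_nonneg_left (hKle D) h3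
        _ = m * (q * Δ D) := by ring
    exact_mod_cast h1
  -- the good set
  obtain ⟨hRo, hRd⟩ := dense_compl_finite (X := X) (T := {D | Δ D ≠ 0}) hΔ.finite
    (fun D hD => (hΔ.prime D hD).1) (fun D hD => by
      rw [dense_iff_inter_open]
      intro U hU hUne
      obtain ⟨x, hxU, hxD⟩ := IsLocalEq.exists_notMem (hΔ.prime D hD).2.1 hU hUne
      exact ⟨x, hxU, hxD⟩)
  set G₀ : Set X := Nᶜ ∩ {x | ∀ D ∈ {D | Δ D ≠ 0}, x ∉ D} with hG₀
  have hG₀o : IsOpen G₀ := h.nclosed.isOpen_compl.inter hRo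
  have hG₀d : Dense G₀ := h.ndense.inter_of_isOpen_left hRd h.nclosed.isOpen_compl
  have hGd : Dense {y | y ∉ N ∧ ∀ D, K D ≠ 0 → y ∉ D} :=
    hG₀d.mono fun y hy => ⟨hy.1, fun D hD => hy.2 D (hKΔ D hD)⟩
  set F : Fin (j + 1) → X → ℂ := fun b y =>
    s b (inv h y) / (dM (Cm n) (Cm n) u (inv h y)).det ^ m with hF
  have hloc : ∀ b x, ∃ (T : Finset (Set X)) (g : Set X → X → ℂ) (a : X → ℂ),
      (∀ D, m * K₁ D ≠ 0 → D ∈ T) ∧ (∀ D ∈ T, IsLocalEq (Cm n) D (g D) x) ∧ HolV (Cm n) a x ∧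
      ∀ᶠ y in 𝓝 x, y ∈ G₀ → F b y * F 0 y ^ (q - 1) * ∏ D ∈ T, g D y ^ (m * K₁ D) =
        a y * jac (Cm n) (chartAt (Cm n) x) y ^ (m * q) := by
    intro b x
    set T : Finset (Set X) := hΔ.finite.toFinset with hT
    have hTm : ∀ D, D ∈ T ↔ Δ D ≠ 0 := fun D => by
      rw [hT, Set.Finite.mem_toFinset]
      rfl
    have hch : ∀ D, ∃ g : X → ℂ, D ∈ T → IsLocalEq (Cm n) D g x := by
      intro D
      by_cases hDT : D ∈ T
      · obtain ⟨g, hg⟩ := (hΔ.prime D ((hTm D).1 hDT)).2.1 x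
        exact ⟨g, fun _ => hg⟩
      · exact ⟨0, fun h => absurd h hDT⟩
    choose g hg using hch
    have hA : ∀ c : Fin (j + 1), ∃ a : X → ℂ, HolV (Cm n) a x ∧ ∀ᶠ y in 𝓝 x, y ∉ N →
        (∀ D, K D ≠ 0 → y ∉ D) → F c y * ∏ D ∈ T, g D y ^ K D =
          a y * jac (Cm n) (chartAt (Cm n) x) y ^ m := fun c =>
      push_local hHar hN h x (hs c) (fun D hD => (hTm D).2 (hKΔ D hD)) hg hGd hkK
        fun z hz D D' h1 h1' h2 h2' he => comp_inj h hΔ₁ (fun C hC => (hD C hC).imp_right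
          fun h => h.1) hz (hkΔ D h1) (hkΔ D' h1') h2 h2' he
    obtain ⟨ab, hab, habe⟩ := hA b
    obtain ⟨a0, ha0, ha0e⟩ := hA 0
    refine ⟨T, g, fun y => ab y * a0 y ^ (q - 1) * ∏ D ∈ T, g D y ^ (m * K₁ D - q * K D),
      fun D hD => (hTm D).2 ((hK₁Δ D).1 hD), hg, HolV.mul (HolV.mul hab (ha0.pow _))
        (HolV.prod fun D hD => ((hg D hD).holAt).pow _), ?_⟩
    filter_upwards [habe, ha0e] with y h1 h2 hy
    have h1' := h1 hy.1 fun D hD => hy.2 D (hKΔ D hD)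
    have h2' := h2 hy.1 fun D hD => hy.2 D (hKΔ D hD)
    have h7 : ∏ D ∈ T, g D y ^ (m * K₁ D) =
        (∏ D ∈ T, g D y ^ K D) ^ q * ∏ D ∈ T, g D y ^ (m * K₁ D - q * K D) := by
      rw [← Finset.prod_pow, ← Finset.prod_mul_distrib]
      refine Finset.prod_congr rfl fun D _ => ?_
      rw [← pow_mul, ← pow_add, mul_comm (K D) q, Nat.add_sub_cancel' (hKK D)]
    rw [h7]
    have hq1 : q - 1 + 1 = q := by omega
    set P := ∏ D ∈ T, g D y ^ K D with hPd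
    set J := jac (Cm n) (chartAt (Cm n) x) y with hJ
    have h9 : P * P ^ (q - 1) = P ^ q := by rw [← pow_succ', hq1]
    have h10 : J ^ m * (J ^ m) ^ (q - 1) = J ^ (m * q) := by rw [← pow_succ', hq1, ← pow_mul]
    calc F b y * F 0 y ^ (q - 1) * (P ^ q * ∏ D ∈ T, g D y ^ (m * K₁ D - q * K D))
        = (F b y * P) * (F 0 y * P) ^ (q - 1) * ∏ D ∈ T, g D y ^ (m * K₁ D - q * K D) := by
          rw [mul_pow, ← h9]; ring
      _ = (ab y * J ^ m) * (a0 y * J ^ m) ^ (q - 1) *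
          ∏ D ∈ T, g D y ^ (m * K₁ D - q * K D) := by rw [h1', h2']
      _ = ab y * a0 y ^ (q - 1) * (∏ D ∈ T, g D y ^ (m * K₁ D - q * K D)) *
          (J ^ m * (J ^ m) ^ (q - 1)) := by rw [mul_pow]; ring
      _ = _ := by rw [h10]
  choose σ hσ hσe using fun b => H76.glue_section hG₀d (m := m * q) (k := fun D => m * K₁ D)
    (s₀ := fun y => F b y * F 0 y ^ (q - 1)) (hloc b)
  have hσG : ∀ b, ∀ y ∈ G₀, σ b y = F b y * F 0 y ^ (q - 1) := fun b y hy =>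
    hσe b y hy fun D hD => hy.2 D ((hK₁Δ D).1 hD)
  -- the point
  obtain ⟨z₂, hz₂⟩ := good_point hs hz₁ hs0 hind
  obtain ⟨V, hV, hVo, hzV⟩ := eventually_nhds_iff.1 hz₂
  obtain ⟨z, hzV', hzG⟩ := (h.dpre G₀ hG₀o hG₀d).inter_open_nonempty V hVo ⟨z₂, hzV⟩
  obtain ⟨hg1, hg2, hg3, hg4⟩ := hV z hzV'
  have hzN : u z ∉ N := hzG.1
  have hiz : inv h (u z) = z := inv_u h hzN
  have hdet : ∀ y, y ∉ N → (dM (Cm n) (Cm n) u (inv h y)).det ≠ 0 := fun y hy =>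
    det_ne_of_bij (h.exc _ (by rw [u_inv h]; exact hy))
  have hF0 : ∀ y, y ∉ N → s 0 (inv h y) ≠ 0 → F 0 y ≠ 0 := fun y hy h0 =>
    div_ne_zero h0 (pow_ne_zero _ (hdet y hy))
  have hev : ∀ᶠ y in 𝓝 (u z), y ∈ G₀ ∧ s 0 (inv h y) ≠ 0 := by
    have e1 : ∀ᶠ y in 𝓝 (u z), inv h y ∈ V :=
      (tendsto_inv h hzN).eventually (hVo.mem_nhds hzV')
    filter_upwards [hG₀o.mem_nhds hzG, e1] with y h1 h2
    exact ⟨h1, (hV _ h2).1⟩
  have hratio : ∀ b : Fin j, (fun y => σ b.succ y / σ 0 y) =ᶠ[𝓝 (u z)]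
      fun y => (fun w => s b.succ w / s 0 w) (inv h y) := by
    intro b
    filter_upwards [hev] with y hy
    have h1 : F 0 y ≠ 0 := hF0 y hy.1.1 hy.2
    rw [hσG _ y hy.1, hσG _ y hy.1, mul_div_mul_right _ _ (pow_ne_zero _ h1)]
    simp only [hF]
    rw [div_div_div_cancel_right₀ (pow_ne_zero _ (hdet y hy.1.1))]
  have hhol : ∀ b : Fin j, HolV (Cm n) (fun y => σ b.succ y / σ 0 y) (u z) := fun b =>
    (holV_of_inv h hzN (hg3 b)).congr (hratio b)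
  refine ⟨m * q, fun D => m * K₁ D, σ, u z, Nat.mul_pos hm hq, fun D => ?_, hσ, fun D hD => ?_,
    ?_, ?_⟩
  · push_cast
    rw [hK₁ D]
    ring
  · obtain ⟨g, hg⟩ := (hΔ.prime D ((hK₁Δ D).1 hD)).2.1 (u z)
    exact ⟨g, hg, fun h0 => hzG.2 D ((hK₁Δ D).1 hD)
      ((show IsLocalEq (Cm n) D g (u z) from hg).mem_iff.2 h0)⟩
  · rw [hσG 0 (u z) hzG]
    have h1 : F 0 (u z) ≠ 0 := hF0 (u z) hzN (by rw [hiz]; exact hg1)
    exact mul_ne_zero h1 (pow_ne_zero _ h1)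
  · rw [← linearIndependent_precomp (h.exc z hzN).2]
    have hcomp : (fun b : Fin j => (dif (Cm n) (fun w => σ b.succ w / σ 0 w) (u z)).comp
        (dM (Cm n) (Cm n) u z)) = fun b : Fin j => dif (Cm n) (fun w => s b.succ w / s 0 w) z := by
      funext b
      rw [← dif_comp (hhol b) (h.hol z)]
      refine dV_congr ?_
      have e1 := (h.hol z).continuousAt.eventually (hratio b)
      have e2 : ∀ᶠ w in 𝓝 z, u w ∉ N :=
        (h.hol z).continuousAt.eventually (h.nclosed.isOpen_compl.mem_nhds hzN)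
      filter_upwards [e1, e2] with w h1 h2
      rw [h1]
      show s b.succ (inv h (u w)) / s 0 (inv h (u w)) = s b.succ w / s 0 w
      rw [inv_u h h2]
    rw [hcomp]
    exact hg4

end KodB

/-- **V13c** -/
theorem bir (hHar : HartogsStmt) (hExc : ExcStmt) : BirStmt := by
  intro n X X₁ _ _ _ _ _ u Δ Δ₁ hmod hΔ hΔ₁ hD
  have hN : IsSmall2 (Cm n) (u '' excSet (Cm n) u) := hExc n X X₁ u hmod
  obtain ⟨⟨hT2, hT2', hM, hM'⟩, hu, hp, U, hU, hUd, hUd', h1⟩ := hmod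
  have hNd : Dense (u '' excSet (Cm n) u)ᶜ := H383.Gen.dense_compl_small (small_of_small2 hN)
  have h : Mod (n := n) u (u '' excSet (Cm n) u) :=
    mod_of hu hp hU hUd hUd' h1 hN.1 hNd fun z hz => by
      by_contra hcon
      exact hz ⟨z, hcon, rfl⟩
  unfold TZ.S.kodX
  rw [JB.kod_eq, JB.kod_eq]
  unfold kod
  refine iSup₂_le fun j hj => le_iSup₂_of_le j ?_ le_rfl
  refine kodGE_push hHar hN h (JB.snc hΔ) (JB.snc hΔ₁) (fun D hD0 => ?_) hj
  rcases hD D hD0 with h2 | h2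
  · exact Or.inl fun w hw => mem_image_of_mem u (h2 hw)
  · exact Or.inr ⟨h2.1.2.1, h2.2⟩

end Vale.Agent.P281.H308.Bir
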