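import Vale.Agent.P281.H64.Gen.SpecN
import Vale.Agent.P281.H76.Pull
import Vale.Agent.P281.H76.Red2
import Vale.Agent.P281.ISO.Emb124
import Vale.Agent.P281.H383.Gen.Ext

/-! P281, project T-V, block V13c (helper308): the inverse of a modification off the image of the
exceptional set. -/

open scoped Manifold ContDiff Topology
open Set Filter

set_option linter.unusedSectionVars false

noncomputable section

namespace Vale.Agent.P281.H308.Bir

open Vale.Agent.P281 Vale.Agent.P281.H64 Vale.Agent.P281.H64.Gen Vale.Agent.P281.ISO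

variable {n : ℕ} {X X₁ : Type} [TopologicalSpace X] [ChartedSpace (Cm n) X]
  [TopologicalSpace X₁] [ChartedSpace (Cm n) X₁]

theorem det_ne_of_bij {A : Cm n →L[ℂ] Cm n} (hA : Function.Bijective A) : A.det ≠ 0 :=
  det_ne_of_inj hA.1

theorem bij_of_det_ne {A : Cm n →L[ℂ] Cm n} (hA : A.det ≠ 0) : Function.Bijective A := by
  have h := (LinearMap.equivOfDetNeZero ((A : Cm n →L[ℂ] Cm n) : Cm n →ₗ[ℂ] Cm n) hA).bijective
  exact h

section Man

variable [IsManifold 𝓘(ℂ, Cm n) ω X] [IsManifold 𝓘(ℂ, Cm n) ω X₁]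

/-- `u` is open at the points where its derivative is bijective. -/
theorem nhds_le_map {u : X₁ → X} {z : X₁} (hu : HolM (Cm n) (Cm n) u z)
    (hz : Function.Bijective (dM (Cm n) (Cm n) u z)) : 𝓝 (u z) ≤ map u (𝓝 z) := by
  set φ := chartAt (Cm n) z with hφ
  set ψ := chartAt (Cm n) (u z) with hψ
  have hzs : z ∈ φ.source := mem_chart_source (Cm n) z
  have hus : u z ∈ ψ.source := mem_chart_source (Cm n) (u z)
  have hψu : HolV (Cm n) (fun w => ψ (u w)) z :=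
    HolV.comp (h := (ψ : X → Cm n)) (HolV.chart hus) hu
  have h1 : ContDiffAt ℂ ω ((fun w => ψ (u w)) ∘ φ.symm) (φ z) := hψu.rep hzs
  have h2 := dV_eq_chart hzs hψu
  have h3 := dV_comp (h := (ψ : X → Cm n)) (HolV.chart hus) hu
  have hdet : (fderiv ℂ ((fun w => ψ (u w)) ∘ φ.symm) (φ z)).det ≠ 0 := by
    intro h0
    have h4 := congrArg ContinuousLinearMap.det (h2.symm.trans h3)
    rw [clm_det_comp, clm_det_comp, h0, zero_mul] at h4
    exact (mul_ne_zero (jac_chart_ne_zero hus) (det_ne_of_bij hz)) h4.symm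
  have h4 := (h1.hasStrictFDerivAt (by simp)).map_nhds_eq_of_surj
    (LinearMap.range_eq_top.2 (bij_of_det_ne hdet).2)
  have h5 : ((fun w => ψ (u w)) ∘ φ.symm) (φ z) = ψ (u z) := by
    simp [φ.left_inv hzs]
  rw [h5] at h4
  intro W hW
  rw [mem_map] at hW
  -- `W ⊇ u (W')`
  have h6 : φ '' ((u ⁻¹' W) ∩ φ.source ∩ u ⁻¹' ψ.source) ∈ 𝓝 (φ z) := by
    rw [← φ.map_nhds_eq hzs]
    exact image_mem_map (inter_mem (inter_mem hW (φ.open_source.mem_nhds hzs))
      (hu.continuousAt.preimage_mem_nhds (ψ.open_source.mem_nhds hus)))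
  have h7 : ((fun w => ψ (u w)) ∘ φ.symm) '' (φ '' ((u ⁻¹' W) ∩ φ.source ∩ u ⁻¹' ψ.source)) ∈
      𝓝 (ψ (u z)) := by
    rw [← h4]
    exact image_mem_map h6
  have h8 := ψ.continuousAt hus
  filter_upwards [h8.preimage_mem_nhds h7, ψ.open_source.mem_nhds hus] with y hy hys
  obtain ⟨-, ⟨w, ⟨⟨hw1, hw2⟩, hw3⟩, rfl⟩, hw4⟩ := hy
  have h9 : ψ (u w) = ψ y := by
    have : ((fun w => ψ (u w)) ∘ φ.symm) (φ w) = ψ (u w) := by simp [φ.left_inv hw2]
    rw [← this]
    exact hw4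
  have h10 : u w = y := ψ.injOn hw3 hys h9
  rw [← h10]
  exact hw1

/-- A modification `u`, which is an isomorphism over the complement of `N`. -/
structure Mod (u : X₁ → X) (N : Set X) : Prop where
  hol : ∀ z, HolM (Cm n) (Cm n) u z
  closed : IsClosedMap u
  surj : Function.Surjective u
  nclosed : IsClosed N
  ndense : Dense Nᶜ
  exc : ∀ z, u z ∉ N → Function.Bijective (dM (Cm n) (Cm n) u z)
  inj : ∀ z z', u z = u z' → u z ∉ N → z = z'
  dpre : ∀ G : Set X, IsOpen G → Dense G → Dense (u ⁻¹' G)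

theorem mod_of [T2Space X] [T2Space X₁] {u : X₁ → X} {N : Set X}
    (hu : ContMDiff 𝓘(ℂ, Cm n) 𝓘(ℂ, Cm n) ω u) (hp : IsProperMap u) {U : Set X} (hU : IsOpen U)
    (hUd : Dense U) (hUd' : Dense (u ⁻¹' U)) (h1 : ∀ x ∈ U, ∃! z, u z = x)
    (hN : IsClosed N) (hNd : Dense Nᶜ)
    (hexc : ∀ z, u z ∉ N → Function.Bijective (mfderiv 𝓘(ℂ, Cm n) 𝓘(ℂ, Cm n) u z)) :
    Mod (n := n) u N := by
  have hcl : IsClosedMap u := hp.isClosedMap
  have hsurj : Function.Surjective u := by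
    have h2 : IsClosed (range u) := hcl.isClosed_range
    have h3 : U ⊆ range u := by
      intro x hx
      obtain ⟨z, hz, -⟩ := h1 x hx
      exact ⟨z, hz⟩
    have h4 : range u = univ := by
      rw [eq_univ_iff_forall]
      intro x
      have h5 : closure U ⊆ range u := closure_minimal h3 h2
      exact h5 (by rw [hUd.closure_eq]; trivial)
    exact range_eq_univ.1 h4
  refine ⟨fun z => hu z, hcl, hsurj, hN, hNd, hexc, ?_, ?_⟩
  · intro z z' hzz hz
    by_contra hne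
    obtain ⟨W, W', hW, hW', hzW, hzW', hdis⟩ := t2_separation hne
    have e1 : u '' W ∈ 𝓝 (u z) :=
      nhds_le_map (hu z) (hexc z hz) (image_mem_map (hW.mem_nhds hzW))
    have e2 : u '' W' ∈ 𝓝 (u z) := by
      rw [hzz]
      exact nhds_le_map (hu z') (hexc z' (by rw [← hzz]; exact hz))
        (image_mem_map (hW'.mem_nhds hzW'))
    obtain ⟨x, hxU, ⟨w, hw, hwx⟩, ⟨w', hw', hwx'⟩⟩ := hUd.inter_nhds_nonempty (inter_mem e1 e2)
    obtain ⟨y, -, hy⟩ := h1 x hxU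
    have h3 : w = w' := (hy w hwx).trans (hy w' hwx').symm
    exact disjoint_left.1 hdis hw (h3 ▸ hw')
  · intro G hG hGd
    rw [dense_iff_inter_open]
    intro W hW hWne
    obtain ⟨z, hzW, hzU⟩ := hUd'.inter_open_nonempty W hW hWne
    -- `u (W ∩ u⁻¹ U)` is open
    have h3 : IsOpen (U ∩ (u '' Wᶜ)ᶜ) := hU.inter (hcl _ hW.isClosed_compl).isOpen_compl
    have h4 : ∀ x ∈ U ∩ (u '' Wᶜ)ᶜ, ∃ w ∈ W, u w = x := by
      rintro x ⟨hxU, hx⟩
      obtain ⟨w, hw, -⟩ := h1 x hxU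
      refine ⟨w, ?_, hw⟩
      by_contra hwW
      exact hx ⟨w, hwW, hw⟩
    have h5 : u z ∈ U ∩ (u '' Wᶜ)ᶜ := by
      refine ⟨hzU, ?_⟩
      rintro ⟨w, hw, hwz⟩
      obtain ⟨y, -, hy⟩ := h1 (u z) hzU
      have h6 : w = z := (hy w hwz).trans (hy z rfl).symm
      exact hw (h6 ▸ hzW)
    obtain ⟨x, hx, hxG⟩ := hGd.inter_open_nonempty _ h3 ⟨u z, h5⟩
    obtain ⟨w, hw, rfl⟩ := h4 x hx
    exact ⟨w, hw, hxG⟩

variable {u : X₁ → X} {N : Set X}

/-- the inverse of `u` -/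
def inv (h : Mod (n := n) u N) (x : X) : X₁ := Function.surjInv h.surj x

theorem u_inv (h : Mod (n := n) u N) (x : X) : u (inv h x) = x := Function.surjInv_eq h.surj x

theorem inv_u (h : Mod (n := n) u N) {z : X₁} (hz : u z ∉ N) : inv h (u z) = z :=
  h.inj _ _ (u_inv h _) (by rw [u_inv h]; exact hz)

theorem tendsto_inv (h : Mod (n := n) u N) {z : X₁} (hz : u z ∉ N) :
    Tendsto (inv h) (𝓝 (u z)) (𝓝 z) := by
  intro W hW
  rw [mem_map]
  obtain ⟨V, hVW, hV, hzV⟩ := mem_nhds_iff.1 hW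
  have h1 : IsOpen (u '' Vᶜ)ᶜ := (h.closed _ hV.isClosed_compl).isOpen_compl
  have h2 : u z ∈ (u '' Vᶜ)ᶜ := by
    rintro ⟨w, hw, hwz⟩
    exact hw (by rw [← h.inj z w hwz.symm hz]; exact hzV)
  filter_upwards [h1.mem_nhds h2] with y hy
  apply hVW
  by_contra hcon
  exact hy ⟨inv h y, hcon, u_inv h y⟩

theorem holV_of_inv (h : Mod (n := n) u N) {z : X₁} (hz : u z ∉ N) {V : Type*}
    [NormedAddCommGroup V] [NormedSpace ℂ V] {A : X₁ → V} (hA : HolV (Cm n) A z) :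
    HolV (Cm n) (fun y => A (inv h y)) (u z) := by
  refine holV_of_comp (h.hol z) (h.exc z hz).1 (hA.congr ?_)
  have h1 : ∀ᶠ w in 𝓝 z, u w ∉ N :=
    (h.hol z).continuousAt.eventually (h.nclosed.isOpen_compl.mem_nhds hz)
  filter_upwards [h1] with w hw
  rw [inv_u h hw]

end Man

end Vale.Agent.P281.H308.Bir
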