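import Vale.Agent.P281.H308.Bir.Inv

/-! P281, project T-V, block V13c (helper308): sections are pushed forward by a modification. -/

open scoped Manifold ContDiff Topology
open Set Filter

set_option linter.unusedSectionVars false

noncomputable section

namespace Vale.Agent.P281.H308.Bir

open Vale.Agent.P281 Vale.Agent.P281.H64 Vale.Agent.P281.H64.Gen Vale.Agent.P281.ISO

variable {n : ℕ} {X X₁ : Type} [TopologicalSpace X] [ChartedSpace (Cm n) X]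
  [TopologicalSpace X₁] [ChartedSpace (Cm n) X₁] [IsManifold 𝓘(ℂ, Cm n) ω X]
  [IsManifold 𝓘(ℂ, Cm n) ω X₁] {u : X₁ → X} {N : Set X}

/-- A local equation of `u '' D₁` gives, off the exceptional set, a local equation of `D₁`. -/
theorem localEq_pull (h : Mod (n := n) u N) {D₁ : Set X₁} {g : X → ℂ} {z : X₁} (hz : u z ∉ N)
    (hg : IsLocalEq (Cm n) (u '' D₁) g (u z)) : IsLocalEq (Cm n) D₁ (fun w => g (u w)) z := by
  obtain ⟨V, hV, hzV, h1, h2, h3⟩ := hg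
  have hc : Continuous u := continuous_iff_continuousAt.2 fun w => (h.hol w).continuousAt
  have hmem : ∀ w, u w ∉ N → (w ∈ D₁ ↔ u w ∈ u '' D₁) := by
    intro w hw
    refine ⟨fun h => mem_image_of_mem _ h, ?_⟩
    rintro ⟨w', hw', he⟩
    rwa [h.inj w w' he.symm hw]
  refine ⟨u ⁻¹' (V ∩ Nᶜ), (hV.inter h.nclosed.isOpen_compl).preimage hc, ⟨hzV, hz⟩,
    fun w hw => HolV.comp (h1 _ hw.1) (h.hol w), fun w hw => ?_, ?_⟩
  · rw [hmem w hw.2]
    exact h2 _ hw.1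
  · rintro w ⟨hwD, hwV, hwN⟩
    have hcl := h3 ⟨mem_image_of_mem u hwD, hwV⟩
    rw [mem_closure_iff_frequently] at hcl ⊢
    have h5 := hcl.and_eventually ((hV.inter h.nclosed.isOpen_compl).mem_nhds ⟨hwV, hwN⟩)
    refine (tendsto_inv h hwN).frequently (h5.mono ?_)
    rintro y ⟨⟨hyD, hyd⟩, hyV, hyN⟩
    have hy : u (inv h y) = y := u_inv h y
    refine ⟨(hmem _ (by rw [hy]; exact hyN)).2 (by rw [hy]; exact hyD), ?_⟩
    have h6 : dif (Cm n) (fun w => g (u w)) (inv h y) =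
        (dif (Cm n) g y).comp (dM (Cm n) (Cm n) u (inv h y)) := by
      have h7 := dif_comp (g := g) (f := u) (x := inv h y) (by rw [hy]; exact h1 y hyV) (h.hol _)
      rw [h7, hy]
    rw [h6]
    intro h0
    apply hyd
    refine ContinuousLinearMap.ext fun η => ?_
    obtain ⟨ξ, rfl⟩ := (h.exc (inv h y) (by rw [hy]; exact hyN)).2 η
    exact congrArg (fun A : Cm n →L[ℂ] ℂ => A ξ) h0

/-- comparison of the products of the local equations -/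
theorem prod_pull (h : Mod (n := n) u N) {z : X₁} (hz : u z ∉ N) {K : Set X → ℕ}
    {k : Set X₁ → ℕ} {T : Finset (Set X)} {g : Set X → X → ℂ} (hT : ∀ D, K D ≠ 0 → D ∈ T)
    (hg : ∀ D ∈ T, IsLocalEq (Cm n) D (g D) (u z)) {T₁ : Finset (Set X₁)}
    {g₁ : Set X₁ → X₁ → ℂ} (hg₁ : ∀ D ∈ T₁, IsLocalEq (Cm n) D (g₁ D) z)
    (hk : ∀ D, k D ≠ 0 → z ∈ D → K (u '' D) = k D)
    (hinj : ∀ D D', k D ≠ 0 → k D' ≠ 0 → z ∈ D → z ∈ D' → u '' D = u '' D' → D = D') :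
    ∃ C : X₁ → ℂ, HolV (Cm n) C z ∧ ∀ᶠ w in 𝓝 z,
      ∏ D ∈ T, g D (u w) ^ K D = C w * ∏ D ∈ T₁, g₁ D w ^ k D := by
  classical
  set P : Finset (Set X₁) := T₁.filter (fun D => k D ≠ 0 ∧ z ∈ D) with hP
  have hPm : ∀ D ∈ P, D ∈ T₁ ∧ k D ≠ 0 ∧ z ∈ D := fun D hD => by
    rw [hP, Finset.mem_filter] at hD
    exact hD
  have hPT : P.image (fun D => u '' D) ⊆ T := by
    intro D hD
    rw [Finset.mem_image] at hD
    obtain ⟨D₁, hD₁, rfl⟩ := hD
    obtain ⟨-, h1, h2⟩ := hPm D₁ hD₁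
    exact hT _ (by rw [hk D₁ h1 h2]; exact h1)
  have hex : ∀ D : Set X₁, ∃ c : X₁ → ℂ, HolV (Cm n) c z ∧ (D ∈ P →
      ∀ᶠ w in 𝓝 z, g (u '' D) (u w) = c w * g₁ D w) := by
    intro D
    by_cases hD : D ∈ P
    · obtain ⟨h1, h2, h3⟩ := hPm D hD
      have h4 : IsLocalEq (Cm n) (u '' D) (g (u '' D)) (u z) :=
        hg _ (hPT (Finset.mem_image_of_mem _ hD))
      obtain ⟨c, hc, -, hce⟩ := H76.unit_ratio_red (localEq_pull h hz h4) (hg₁ D h1)
      exact ⟨c, hc, fun _ => hce⟩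
    · exact ⟨fun _ => 1, HolV.const _ _, fun h => absurd h hD⟩
  choose c hc hce using hex
  set Q : X₁ → ℂ := fun w => ∏ D ∈ T₁ \ P, g₁ D w ^ k D with hQ
  have hQh : HolV (Cm n) Q z := HolV.prod fun D hD =>
    ((hg₁ D (Finset.mem_sdiff.1 hD).1).holAt).pow _
  have hQ0 : Q z ≠ 0 := by
    refine Finset.prod_ne_zero_iff.2 fun D hD => ?_
    rw [Finset.mem_sdiff] at hD
    by_cases h0 : k D = 0
    · rw [h0, pow_zero]
      exact one_ne_zero
    · refine pow_ne_zero _ fun h1 => hD.2 ?_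
      rw [hP, Finset.mem_filter]
      exact ⟨hD.1, h0, (hg₁ D hD.1).mem_iff.2 h1⟩
  refine ⟨fun w => ((∏ D ∈ T \ P.image (fun D => u '' D), g D (u w) ^ K D) *
    ∏ D ∈ P, c D w ^ k D) / Q w, HolV.div (HolV.mul (HolV.prod fun D hD => ?_)
      (HolV.prod fun D hD => (hc D).pow _)) hQh hQ0, ?_⟩
  · exact (HolV.comp (hg D (Finset.mem_sdiff.1 hD).1).holAt (h.hol z)).pow _
  · have hall : ∀ᶠ w in 𝓝 z, ∀ D ∈ P, g (u '' D) (u w) = c D w * g₁ D w := by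
      rw [Filter.eventually_all_finset]
      exact fun D hD => hce D hD
    filter_upwards [hall, hQh.continuousAt.eventually_ne hQ0] with w hw hQw
    have e1 : ∏ D ∈ T, g D (u w) ^ K D = (∏ D ∈ T \ P.image (fun D => u '' D), g D (u w) ^ K D) *
        ∏ D ∈ P.image (fun D => u '' D), g D (u w) ^ K D := (Finset.prod_sdiff hPT).symm
    have e2 : ∏ D ∈ P.image (fun D => u '' D), g D (u w) ^ K D =
        ∏ D ∈ P, (c D w * g₁ D w) ^ k D := by
      rw [Finset.prod_image]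
      · refine Finset.prod_congr rfl fun D hD => ?_
        obtain ⟨-, h1, h2⟩ := hPm D hD
        rw [hw D hD, hk D h1 h2]
      · intro D hD D' hD' he
        obtain ⟨-, h1, h2⟩ := hPm D hD
        obtain ⟨-, h1', h2'⟩ := hPm D' hD'
        exact hinj D D' h1 h1' h2 h2' he
    have e3 : ∏ D ∈ T₁, g₁ D w ^ k D = Q w * ∏ D ∈ P, g₁ D w ^ k D :=
      (Finset.prod_sdiff (Finset.filter_subset _ _)).symm
    have e4 : ∏ D ∈ P, (c D w * g₁ D w) ^ k D =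
        (∏ D ∈ P, c D w ^ k D) * ∏ D ∈ P, g₁ D w ^ k D := by
      rw [← Finset.prod_mul_distrib]
      exact Finset.prod_congr rfl fun D _ => mul_pow _ _ _
    rw [e1, e2, e3, e4]
    field_simp

/-- the push-forward of a section, near a point of the complement of `N` -/
theorem push_at (h : Mod (n := n) u N) {z : X₁} (hz : u z ∉ N) {x₀ : X}
    (hx : u z ∈ (chartAt (Cm n) x₀).source) {m : ℕ} {K : Set X → ℕ} {k : Set X₁ → ℕ} {s : X₁ → ℂ}
    (hs : IsSection (Cm n) (fun (D : Set X₁) z g => IsLocalEq (Cm n) D g z) m k s)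
    {T : Finset (Set X)} {g : Set X → X → ℂ} (hT : ∀ D, K D ≠ 0 → D ∈ T)
    (hg : ∀ D ∈ T, IsLocalEq (Cm n) D (g D) (u z))
    (hk : ∀ D, k D ≠ 0 → (∀ w ∈ D, u w ∈ N) ∨ K (u '' D) = k D)
    (hinj : ∀ D D', k D ≠ 0 → k D' ≠ 0 → z ∈ D → z ∈ D' → u '' D = u '' D' → D = D') :
    ∃ B : X → ℂ, HolV (Cm n) B (u z) ∧ ∀ᶠ y in 𝓝 (u z), y ∉ N → (∀ D, K D ≠ 0 → y ∉ D) →
      s (inv h y) / (dM (Cm n) (Cm n) u (inv h y)).det ^ m * ∏ D ∈ T, g D y ^ K D =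
        B y * jac (Cm n) (chartAt (Cm n) x₀) y ^ m := by
  classical
  obtain ⟨T₁, g₁, a₁, hT₁, hg₁, ha₁, hev⟩ := hs z
  have hφ : HolV (Cm n) (fun w => chartAt (Cm n) x₀ (u w)) z :=
    HolV.comp (h := (chartAt (Cm n) x₀ : X → Cm n)) (HolV.chart hx) (h.hol z)
  obtain ⟨R, hR, hRe⟩ := H76.jac_local hφ
  have hcomp : ∀ᶠ w in 𝓝 z, jac (Cm n) (fun w => chartAt (Cm n) x₀ (u w)) w =
      jac (Cm n) (chartAt (Cm n) x₀) (u w) * (dM (Cm n) (Cm n) u w).det := by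
    filter_upwards [(h.hol z).continuousAt.eventually
      ((chartAt (Cm n) x₀).open_source.mem_nhds hx)] with w hws
    have h1 : jac (Cm n) (fun w => chartAt (Cm n) x₀ (u w)) w =
        (dV (Cm n) (fun w => chartAt (Cm n) x₀ (u w)) w).det := rfl
    rw [h1, dV_comp (h := (chartAt (Cm n) x₀ : X → Cm n)) (HolV.chart hws) (h.hol w),
      clm_det_comp]
    rfl
  have hR0 : R z ≠ 0 := by
    intro h0
    have h1 := hRe.self_of_nhds
    rw [hcomp.self_of_nhds, h0, zero_mul] at h1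
    exact mul_ne_zero (jac_chart_ne_zero hx) (det_ne_of_bij (h.exc z hz)) h1
  obtain ⟨C, hC, hCe⟩ := prod_pull h hz hT hg hg₁ (k := k) (fun D hD hzD => by
    rcases hk D hD with h1 | h1
    · exact absurd (h1 z hzD) hz
    · exact h1) hinj
  refine ⟨fun y => (fun w => a₁ w * C w / R w ^ m) (inv h y),
    holV_of_inv h hz (HolV.div (HolV.mul ha₁ hC) (hR.pow m) (pow_ne_zero _ hR0)), ?_⟩
  have hgev : ∀ᶠ w in 𝓝 z, ∀ D ∈ T₁, IsLocalEq (Cm n) D (g₁ D) w := by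
    rw [Filter.eventually_all_finset]
    exact fun D hD => (hg₁ D hD).eventually
  filter_upwards [(tendsto_inv h hz).eventually ((((hev.and hRe).and (hcomp.and hCe)).and
    hgev).and (hR.continuousAt.eventually_ne hR0))] with y hy hyN hyK
  obtain ⟨⟨⟨⟨h1, h2⟩, h3, h4⟩, h5⟩, h6⟩ := hy
  have huy : u (inv h y) = y := u_inv h y
  set w := inv h y with hw
  have hd : (dM (Cm n) (Cm n) u w).det ≠ 0 := det_ne_of_bij (h.exc w (by rw [huy]; exact hyN))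
  have hQ : ∏ D ∈ T₁, g₁ D w ^ k D ≠ 0 := by
    refine Finset.prod_ne_zero_iff.2 fun D hD => ?_
    by_cases h0 : k D = 0
    · rw [h0, pow_zero]
      exact one_ne_zero
    · refine pow_ne_zero _ fun h7 => ?_
      have h8 : w ∈ D := (h5 D hD).mem_iff.2 h7
      rcases hk D h0 with h9 | h9
      · exact hyN (by rw [← huy]; exact h9 w h8)
      · exact hyK (u '' D) (by rw [h9]; exact h0) (by rw [← huy]; exact mem_image_of_mem u h8)
  have e1 := h1 hQ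
  rw [huy] at h3 h4
  rw [h3] at h2
  show s w / (dM (Cm n) (Cm n) u w).det ^ m * ∏ D ∈ T, g D y ^ K D =
    a₁ w * C w / R w ^ m * jac (Cm n) (chartAt (Cm n) x₀) y ^ m
  rw [h4]
  set d := (dM (Cm n) (Cm n) u w).det with hdd
  set Q := ∏ D ∈ T₁, g₁ D w ^ k D with hQQ
  set J := jac (Cm n) (chartAt (Cm n) x₀) y with hJ
  set J₁ := jac (Cm n) (chartAt (Cm n) z) w with hJ₁
  have hdm : d ^ m ≠ 0 := pow_ne_zero _ hd
  have hRm : R w ^ m ≠ 0 := pow_ne_zero _ h6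
  have e2 : J ^ m * d ^ m = R w ^ m * J₁ ^ m := by rw [← mul_pow, h2, mul_pow]
  rw [div_mul_eq_mul_div, div_mul_eq_mul_div, div_eq_div_iff hdm hRm]
  calc s w * (C w * Q) * R w ^ m = (s w * Q) * C w * R w ^ m := by ring
    _ = (a₁ w * J₁ ^ m) * C w * R w ^ m := by rw [e1]
    _ = a₁ w * C w * (R w ^ m * J₁ ^ m) := by ring
    _ = a₁ w * C w * J ^ m * d ^ m := by rw [← e2]; ring

/-- gluing of local quotients -/
theorem glueB [T2Space X] {G U : Set X} (hGd : Dense G) (hU : IsOpen U) (hN : IsClosed N) {F J : X → ℂ}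
    (hJ : ∀ x ∈ U, J x ≠ 0) (hloc : ∀ x ∈ U, x ∉ N → ∃ B : X → ℂ, HolV (Cm n) B x ∧
      ∀ᶠ y in 𝓝 x, y ∈ G → F y = B y * J y) :
    ∃ b : X → ℂ, (∀ x ∈ U, x ∉ N → HolV (Cm n) b x) ∧
      ∀ x ∈ U, x ∉ N → x ∈ G → F x = b x * J x := by
  classical
  have hch : ∀ x, ∃ B : X → ℂ, x ∈ U → x ∉ N → HolV (Cm n) B x ∧
      ∀ᶠ y in 𝓝 x, y ∈ G → F y = B y * J y := by
    intro x
    by_cases hx : x ∈ U ∧ x ∉ N
    · obtain ⟨B, hB⟩ := hloc x hx.1 hx.2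
      exact ⟨B, fun _ _ => hB⟩
    · exact ⟨0, fun h1 h2 => absurd ⟨h1, h2⟩ hx⟩
  choose B hB using hch
  refine ⟨fun x => B x x, fun x hx hxN => ?_, fun x hx hxN hxG => ?_⟩
  · obtain ⟨h1, h2⟩ := hB x hx hxN
    refine h1.congr ?_
    filter_upwards [h1.eventually, eventually_eventually_nhds.2 h2, hU.mem_nhds hx,
      hN.isOpen_compl.mem_nhds hxN] with y h3 h4 h5 h6
    obtain ⟨h7, h8⟩ := hB y h5 h6
    show B y y = B x y
    refine H383.Gen.eq_of_freq h7.continuousAt h3.continuousAt ?_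
    have h9 : ∃ᶠ t in 𝓝 y, t ∈ G := mem_closure_iff_frequently.1 (hGd y)
    refine (h9.and_eventually ((h4.and h8).and (hU.mem_nhds h5))).mono ?_
    rintro t ⟨ht1, ⟨ht2, ht3⟩, ht4⟩
    have h10 := ht2 ht1
    rw [ht3 ht1] at h10
    exact mul_right_cancel₀ (hJ t ht4) h10
  · exact (hB x hx hxN).2.self_of_nhds hxG

/-- the push-forward of a section, near any point -/
theorem push_local [T2Space X] (hHar : HartogsStmt) (hN : IsSmall2 (Cm n) N)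
    (h : Mod (n := n) u N) (x₀ : X)
    {m : ℕ} {K : Set X → ℕ} {k : Set X₁ → ℕ} {s : X₁ → ℂ}
    (hs : IsSection (Cm n) (fun (D : Set X₁) z g => IsLocalEq (Cm n) D g z) m k s)
    {T : Finset (Set X)} {g : Set X → X → ℂ} (hT : ∀ D, K D ≠ 0 → D ∈ T)
    (hg : ∀ D ∈ T, IsLocalEq (Cm n) D (g D) x₀)
    (hGd : Dense {y | y ∉ N ∧ ∀ D, K D ≠ 0 → y ∉ D})
    (hk : ∀ D, k D ≠ 0 → (∀ w ∈ D, u w ∈ N) ∨ K (u '' D) = k D)
    (hinj : ∀ z, u z ∉ N → ∀ D D', k D ≠ 0 → k D' ≠ 0 → z ∈ D → z ∈ D' → u '' D = u '' D' →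
      D = D') :
    ∃ a : X → ℂ, HolV (Cm n) a x₀ ∧ ∀ᶠ y in 𝓝 x₀, y ∉ N → (∀ D, K D ≠ 0 → y ∉ D) →
      s (inv h y) / (dM (Cm n) (Cm n) u (inv h y)).det ^ m * ∏ D ∈ T, g D y ^ K D =
        a y * jac (Cm n) (chartAt (Cm n) x₀) y ^ m := by
  classical
  have hgev : ∀ᶠ y in 𝓝 x₀, ∀ D ∈ T, IsLocalEq (Cm n) D (g D) y := by
    rw [Filter.eventually_all_finset]
    exact fun D hD => (hg D hD).eventually
  obtain ⟨U, hU, hUo, hxU⟩ := eventually_nhds_iff.1 (hgev.and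
    ((chartAt (Cm n) x₀).open_source.mem_nhds (mem_chart_source (Cm n) x₀)))
  obtain ⟨b, hb1, hb2⟩ := glueB (n := n) (N := N) hGd hUo h.nclosed
    (F := fun y => s (inv h y) / (dM (Cm n) (Cm n) u (inv h y)).det ^ m * ∏ D ∈ T, g D y ^ K D)
    (J := fun y => jac (Cm n) (chartAt (Cm n) x₀) y ^ m)
    (fun y hy => pow_ne_zero _ (jac_chart_ne_zero (hU y hy).2)) (by
      intro x hx hxN
      obtain ⟨z, rfl⟩ := h.surj x
      obtain ⟨B, hB, hBe⟩ := push_at h hxN (hU _ hx).2 hs hT (hU _ hx).1 hk (hinj z hxN)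
      refine ⟨B, hB, ?_⟩
      filter_upwards [hBe] with y hy hyG
      exact hy hyG.1 hyG.2)
  obtain ⟨a, ha, hae⟩ := hHar n X N U b hN hUo (fun x hx hxN => hb1 x hx hxN)
  refine ⟨a, ha x₀ hxU, ?_⟩
  filter_upwards [hUo.mem_nhds hxU] with y hy hyN hyK
  rw [hae y hy hyN]
  exact hb2 y hy hyN ⟨hyN, hyK⟩

end Vale.Agent.P281.H308.Bir
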